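import Vale.Agent.P181.H261.Sup

set_option autoImplicit false

/-!
P181, leaf (R3) of the complement of T6: a small family of injective selections of letters which
contains every independent set of at most four letters.
-/

namespace Vale.Agent.P181.H654

open Finset

/-- The bits of `x` at the positions `pos`. -/
def bits {L : ℕ} (pos : Fin 4 → Fin 4 → Fin L) (x : ℕ) (i j : Fin 4) : Bool :=
  x.testBit (pos i j)

/-- Every function on at most four numbers below `2 ^ L` is given by a table of sixteen bits. -/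
theorem exists_tab {T : Type} [Nonempty T] {L : ℕ} (hL : 1 ≤ L) (E : Finset ℕ) (hE : E.card ≤ 4)
    (hlt : ∀ e ∈ E, e < 2 ^ L) (h : ℕ → T) :
    ∃ (pos : Fin 4 → Fin 4 → Fin L) (tab : (Fin 4 → Fin 4 → Bool) → T),
      ∀ e ∈ E, tab (bits pos e) = h e := by
  classical
  -- an enumeration
  obtain ⟨e, he⟩ : ∃ e : Fin 4 → ℕ, ∀ x ∈ E, ∃ i, e i = x := by
    rcases E.eq_empty_or_nonempty with rfl | ⟨x0, hx0⟩
    · exact ⟨fun _ => 0, by simp⟩
    · let en := E.equivFin
      refine ⟨fun i => if hi : i.1 < E.card then (en.symm ⟨i.1, hi⟩ : ℕ) else x0, ?_⟩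
      intro x hx
      refine ⟨⟨(en ⟨x, hx⟩).1, lt_of_lt_of_le (en ⟨x, hx⟩).2 hE⟩, ?_⟩
      simp
  -- positions of different bits
  have hpos : ∀ i j, ∃ q : Fin L, e i ∈ E → e j ∈ E → e i ≠ e j →
      (e i).testBit q ≠ (e j).testBit q := by
    intro i j
    by_cases hij : e i ∈ E ∧ e j ∈ E ∧ e i ≠ e j
    · obtain ⟨h1, h2, h3⟩ := hij
      obtain ⟨q, hq⟩ := Nat.exists_testBit_ne_of_ne h3
      have hqL : q < L := by
        by_contra hqL
        push Not at hqL
        have hp : 2 ^ L ≤ 2 ^ q := Nat.pow_le_pow_right (by norm_num) hqL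
        rw [Nat.testBit_lt_two_pow ((hlt _ h1).trans_le hp),
          Nat.testBit_lt_two_pow ((hlt _ h2).trans_le hp)] at hq
        exact hq rfl
      exact ⟨⟨q, hqL⟩, fun _ _ _ => hq⟩
    · exact ⟨⟨0, hL⟩, fun h1 h2 h3 => absurd ⟨h1, h2, h3⟩ hij⟩
  choose pos hpos using hpos
  have hinj : ∀ x ∈ E, ∀ y ∈ E, bits pos x = bits pos y → x = y := by
    intro x hx y hy hxy
    obtain ⟨i, rfl⟩ := he x hx
    obtain ⟨j, rfl⟩ := he y hy
    by_contra hne
    exact hpos i j hx hy hne (congrFun (congrFun hxy i) j)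
  refine ⟨pos, fun B => if hB : ∃ x ∈ E, bits pos x = B then h hB.choose else
    Classical.arbitrary T, fun x hx => ?_⟩
  have hB : ∃ y ∈ E, bits pos y = bits pos x := ⟨x, hx, rfl⟩
  beta_reduce
  rw [dif_pos hB]
  rw [hinj _ hB.choose_spec.1 x hx hB.choose_spec.2]

/-- The elements of the support. -/
def supE (N k : ℕ) (m : Fin 3) : ℕ :=
  if k = 1 then (if m = 0 then 0 else if m = 1 then 2 else N - 1)
  else if k % 2 = 0 then k / 2 else (if m = 0 then k / 2 - 1 else k / 2)

theorem supE_mem (N k : ℕ) (m : Fin 3) : supE N k m ∈ H261.sup N k := by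
  unfold supE H261.sup
  split_ifs <;> simp

theorem exists_supE {N k v : ℕ} (hv : v ∈ H261.sup N k) : ∃ m : Fin 3, supE N k m = v := by
  unfold H261.sup at hv
  split_ifs at hv with h1 h2
  · simp only [Finset.mem_insert, Finset.mem_singleton] at hv
    rcases hv with rfl | rfl | rfl
    · exact ⟨0, by simp [supE, h1]⟩
    · exact ⟨1, by simp [supE, h1]⟩
    · exact ⟨2, by simp [supE, h1]⟩
  · rw [Finset.mem_singleton] at hv
    exact ⟨0, by rw [hv]; simp [supE, h1, h2]⟩
  · simp only [Finset.mem_insert, Finset.mem_singleton] at hv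
    rcases hv with rfl | rfl
    · exact ⟨0, by simp [supE, h1, h2]⟩
    · exact ⟨1, by simp [supE, h1, h2]⟩

theorem supE_even (N v : ℕ) (m : Fin 3) : supE N (2 * v) m = v := by
  unfold supE
  rw [if_neg (by omega), if_pos (by omega)]
  omega

/-- The letters with `v` in the support. -/
def prop (v : ℕ) (t : Fin 4) : ℕ :=
  if t = 0 then 2 * v else if t = 1 then 2 * v + 1 else if t = 2 then 2 * v + 3 else 1

theorem exists_prop {N k v : ℕ} (hv : v ∈ H261.sup N k) : ∃ t : Fin 4, prop v t = k := by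
  unfold H261.sup at hv
  split_ifs at hv with h1 h2
  · exact ⟨3, by simp [prop, h1]⟩
  · rw [Finset.mem_singleton] at hv
    exact ⟨0, by simp only [prop, if_true]; omega⟩
  · simp only [Finset.mem_insert, Finset.mem_singleton] at hv
    rcases hv with hv | hv
    · refine ⟨2, ?_⟩
      have : prop v 2 = 2 * v + 3 := by simp [prop]
      rw [this]; omega
    · refine ⟨1, ?_⟩
      have : prop v 1 = 2 * v + 1 := by simp [prop]
      rw [this]; omega

theorem lt_of_mem_sup {N b k v : ℕ} (hN : 3 ≤ N) (hb : 2 * N ≤ b) (hk : k < b)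
    (hv : v ∈ H261.sup N k) : 2 * v < b := by
  unfold H261.sup at hv
  split_ifs at hv with h1 h2
  · simp only [Finset.mem_insert, Finset.mem_singleton] at hv
    omega
  · rw [Finset.mem_singleton] at hv
    omega
  · simp only [Finset.mem_insert, Finset.mem_singleton] at hv
    omega

/-- The type of parameters. -/
abbrev Par (L : ℕ) : Type :=
  ((Fin 4 → Fin 4 → Fin L) × ((Fin 4 → Fin 4 → Bool) → Fin 3)) ×
    ((Fin 4 → Fin 4 → Fin L) × ((Fin 4 → Fin 4 → Bool) → Fin 4))

/-- The mode-chosen support element. -/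
def mode (N : ℕ) {L : ℕ} (p : Par L) (k : ℕ) : ℕ := supE N k (p.1.2 (bits p.1.1 k))

/-- The selections. -/
def sel (N b : ℕ) {L : ℕ} (p : Par L) (v : ℕ) : ℕ :=
  if prop v (p.2.2 (bits p.2.1 v)) < b ∧ mode N p (prop v (p.2.2 (bits p.2.1 v))) = v then
    prop v (p.2.2 (bits p.2.1 v)) else 2 * v

theorem mode_sel (N b : ℕ) {L : ℕ} (p : Par L) (v : ℕ) : mode N p (sel N b p v) = v := by
  unfold sel
  split_ifs with h
  · exact h.2
  · exact supE_even N v _

theorem cover_stmt : H261.CoverStmt := by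
  classical
  refine ⟨Fintype.card ((Fin 4 → Fin 4 → Bool) → Fin 3) *
    Fintype.card ((Fin 4 → Fin 4 → Bool) → Fin 4), ?_⟩
  intro N b L hN hb _ hbL hL
  refine ⟨Par L, inferInstance, sel N b, ?_, ?_, ?_, ?_⟩
  · have h1 : Fintype.card (Fin 4 → Fin 4 → Fin L) = L ^ 16 := by
      rw [Fintype.card_fun, Fintype.card_fun, Fintype.card_fin, Fintype.card_fin, ← pow_mul]
    rw [Fintype.card_prod, Fintype.card_prod, Fintype.card_prod, h1]
    generalize Fintype.card ((Fin 4 → Fin 4 → Bool) → Fin 3) = A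
    generalize Fintype.card ((Fin 4 → Fin 4 → Bool) → Fin 4) = B
    apply le_of_eq
    ring
  · intro p v hv
    have hmem : v ∈ H261.sup N (sel N b p v) := by
      have h := mode_sel N b p v
      have h2 := supE_mem N (sel N b p v) (p.1.2 (bits p.1.1 (sel N b p v)))
      unfold mode at h
      rwa [h] at h2
    refine ⟨?_, hmem⟩
    unfold sel
    split_ifs with h
    · exact h.1
    · exact hv
  · intro p v v' _ _ h
    rw [← mode_sel N b p v, h, mode_sel]
  · intro S hSb hS4 hind
    -- a system of distinct representatives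
    have hall : ∀ s : Finset {k // k ∈ S},
        s.card ≤ (s.biUnion fun k => H261.sup N k.1).card := by
      intro s
      have h := hind (s.map (Function.Embedding.subtype _)) (by
        intro k hk
        rw [Finset.mem_map] at hk
        obtain ⟨x, _, rfl⟩ := hk
        exact x.2)
      rw [Finset.card_map] at h
      refine h.trans (Finset.card_le_card ?_)
      intro v hv
      rw [Finset.mem_biUnion] at hv ⊢
      obtain ⟨k, hk, hkv⟩ := hv
      rw [Finset.mem_map] at hk
      obtain ⟨x, hx, rfl⟩ := hk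
      exact ⟨x, hx, hkv⟩
    obtain ⟨g, hginj, hg⟩ :=
      (Finset.all_card_le_biUnion_card_iff_exists_injective
        (fun k : {k // k ∈ S} => H261.sup N k.1)).mp hall
    let f : ℕ → ℕ := fun k => if h : k ∈ S then g ⟨k, h⟩ else 0
    have hf : ∀ k ∈ S, f k ∈ H261.sup N k := by
      intro k hk
      simp only [f, dif_pos hk]
      exact hg ⟨k, hk⟩
    have hfinj : ∀ k ∈ S, ∀ k' ∈ S, f k = f k' → k = k' := by
      intro k hk k' hk' h
      simp only [f, dif_pos hk, dif_pos hk'] at h
      exact congrArg Subtype.val (hginj h)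
    have hmode : ∀ k, ∃ m : Fin 3, k ∈ S → supE N k m = f k := by
      intro k
      by_cases hk : k ∈ S
      · obtain ⟨m, hm⟩ := exists_supE (hf k hk)
        exact ⟨m, fun _ => hm⟩
      · exact ⟨0, fun h => absurd h hk⟩
    choose h1 hh1 using hmode
    have hprop : ∀ v, ∃ t : Fin 4, ∀ k ∈ S, f k = v → prop v t = k := by
      intro v
      by_cases hv : ∃ k ∈ S, f k = v
      · obtain ⟨k, hk, rfl⟩ := hv
        obtain ⟨t, ht⟩ := exists_prop (hf k hk)
        refine ⟨t, fun k' hk' hkk => ?_⟩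
        rw [hfinj k' hk' k hk hkk]
        exact ht
      · exact ⟨0, fun k hk hkv => absurd ⟨k, hk, hkv⟩ hv⟩
    choose h2 hh2 using hprop
    obtain ⟨pos1, tab1, ht1⟩ := exists_tab hL S hS4
      (fun e he => (hSb e he).trans_le hbL) h1
    obtain ⟨pos2, tab2, ht2⟩ := exists_tab hL (S.image f) (Finset.card_image_le.trans hS4)
      (fun e he => by
        rw [Finset.mem_image] at he
        obtain ⟨k, hk, rfl⟩ := he
        have := lt_of_mem_sup hN hb (hSb k hk) (hf k hk)
        omega) h2
    refine ⟨((pos1, tab1), (pos2, tab2)), f, fun k hk => ?_⟩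
    refine ⟨lt_of_mem_sup hN hb (hSb k hk) (hf k hk), ?_⟩
    have e2 : tab2 (bits pos2 (f k)) = h2 (f k) := ht2 _ (Finset.mem_image_of_mem f hk)
    have e3 : prop (f k) (h2 (f k)) = k := hh2 (f k) k hk rfl
    have e1 : tab1 (bits pos1 k) = h1 k := ht1 k hk
    unfold sel mode
    simp only [e2, e3, e1, hh1 k hk]
    rw [if_pos ⟨hSb k hk, trivial⟩]

end Vale.Agent.P181.H654
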