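import Vale.Agent.P181.H261.Sup

set_option autoImplicit false

/-!
P181, leaf (R2) of the complement of T6: a bipartite graph with given degrees on one side and
nearly constant degrees on the other side (Gale-Ryser, from Hall's marriage theorem).
-/

namespace Vale.Agent.P181.H654

open Finset

/-- The cut condition. -/
theorem fill_key {F V : Type} [Fintype F] [Fintype V] [DecidableEq F] [DecidableEq V]
    (n : F → ℕ) (g : V → ℕ) (a G D : ℕ) (hn : ∀ c, n c ≤ a) (ha : a ≤ Fintype.card V)
    (hg : ∀ v, g v ≤ G) (hG : ∀ v, G ≤ g v + D) (hs : ∑ c, n c = ∑ v, g v)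
    (hD : Fintype.card V * D ≤ (G - D) * (Fintype.card V - a)) (C : Finset F) (W : Finset V) :
    ∑ c ∈ C, n c ≤ C.card * Wᶜ.card + ∑ v ∈ W, g v := by
  have hst : W.card + Wᶜ.card = Fintype.card V := Finset.card_add_card_compl W
  by_cases hk : C.card ≤ G
  · have h1 : ∑ c ∈ C, n c ≤ C.card * a := by
      rw [← smul_eq_mul]
      exact Finset.sum_le_card_nsmul _ _ _ (fun c _ => hn c)
    have h2 : (G - D) * W.card ≤ ∑ v ∈ W, g v := by
      rw [mul_comm, ← smul_eq_mul]
      refine Finset.card_nsmul_le_sum _ _ _ (fun v _ => ?_)
      have := hG v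
      omega
    rcases le_or_gt a Wᶜ.card with hle | hlt
    · have : C.card * a ≤ C.card * Wᶜ.card := Nat.mul_le_mul_left _ hle
      omega
    · obtain ⟨x, hx⟩ := Nat.exists_eq_add_of_le hlt.le
      obtain ⟨y, hy⟩ := Nat.exists_eq_add_of_le ha
      have hya : Fintype.card V - a = y := by omega
      have ht : W.card = x + y := by omega
      rw [hya] at hD
      have hGH : G ≤ (G - D) + D := by omega
      generalize G - D = H at *
      rw [ht] at h2
      have h3 : C.card * a = C.card * Wᶜ.card + C.card * x := by rw [hx]; ring
      have h4 : C.card * x ≤ G * x := Nat.mul_le_mul_right _ hk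
      have h5 : G * x ≤ (H + D) * x := Nat.mul_le_mul_right _ hGH
      have h6 : D * x ≤ Fintype.card V * D := by
        rw [mul_comm]
        exact Nat.mul_le_mul_right _ (by omega)
      have h7 : (H + D) * x = H * x + D * x := by ring
      have h8 : H * (x + y) = H * x + H * y := by ring
      omega
  · have hk' : G ≤ C.card := by omega
    have h1 : ∑ c ∈ C, n c ≤ ∑ v, g v := by
      rw [← hs]
      exact Finset.sum_le_sum_of_subset (Finset.subset_univ _)
    have h2 : ∑ v, g v = ∑ v ∈ W, g v + ∑ v ∈ Wᶜ, g v := (Finset.sum_add_sum_compl W g).symm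
    have h3 : ∑ v ∈ Wᶜ, g v ≤ Wᶜ.card * G := by
      rw [← smul_eq_mul]
      exact Finset.sum_le_card_nsmul _ _ _ (fun v _ => hg v)
    have h4 : Wᶜ.card * G ≤ C.card * Wᶜ.card := by
      rw [mul_comm]
      exact Nat.mul_le_mul_right _ hk'
    omega

theorem fill_stmt : H261.FillStmt := by
  intro F V _ _ _ _ n g a G D hn ha hg hG hs hD
  have key := fill_key n g a G D hn ha hg hG hs hD
  have hgF : ∀ v, g v ≤ Fintype.card F := by
    intro v
    have h := key Finset.univ (Finset.univ.erase v)
    have h1 : ((Finset.univ : Finset V).erase v)ᶜ.card = 1 := by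
      rw [Finset.card_compl, Finset.card_erase_of_mem (Finset.mem_univ v), Finset.card_univ]
      have : 0 < Fintype.card V := Fintype.card_pos_iff.mpr ⟨v⟩
      omega
    have h2 : ∑ w, g w = g v + ∑ w ∈ Finset.univ.erase v, g w :=
      (Finset.add_sum_erase _ _ (Finset.mem_univ v)).symm
    rw [h1, Finset.card_univ, hs, mul_one] at h
    omega
  -- Hall's theorem
  let ι := (Σ c : F, Fin (n c)) ⊕ (Σ v : V, Fin (Fintype.card F - g v))
  let t : ι → Finset (F × V) := fun x => match x with
    | .inl s => {s.1} ×ˢ Finset.univ
    | .inr s => Finset.univ ×ˢ {s.1}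
  have hall : ∀ s : Finset ι, s.card ≤ (s.biUnion t).card := by
    intro s
    let C : Finset F := Finset.univ.filter fun c => ∃ i, Sum.inl ⟨c, i⟩ ∈ s
    let W : Finset V := Finset.univ.filter fun v => ∃ i, Sum.inr ⟨v, i⟩ ∈ s
    have hU : s.biUnion t = (C ×ˢ Finset.univ) ∪ (Cᶜ ×ˢ W) := by
      ext ⟨c, v⟩
      simp only [Finset.mem_biUnion, Finset.mem_union, Finset.mem_product, Finset.mem_univ,
        and_true, Finset.mem_compl]
      constructor
      · rintro ⟨x, hx, hxt⟩
        rcases x with ⟨c', i⟩ | ⟨v', i⟩
        · simp only [t, Finset.mem_product, Finset.mem_singleton, Finset.mem_univ, and_true] at hxt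
          subst hxt
          left
          simp only [C, Finset.mem_filter, Finset.mem_univ, true_and]
          exact ⟨i, hx⟩
        · simp only [t, Finset.mem_product, Finset.mem_singleton, Finset.mem_univ, true_and] at hxt
          subst hxt
          by_cases hc : c ∈ C
          · exact Or.inl hc
          · right
            refine ⟨hc, ?_⟩
            simp only [W, Finset.mem_filter, Finset.mem_univ, true_and]
            exact ⟨i, hx⟩
      · rintro (hc | ⟨_, hv⟩)
        · simp only [C, Finset.mem_filter, Finset.mem_univ, true_and] at hc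
          obtain ⟨i, hi⟩ := hc
          exact ⟨_, hi, by simp [t]⟩
        · simp only [W, Finset.mem_filter, Finset.mem_univ, true_and] at hv
          obtain ⟨i, hi⟩ := hv
          exact ⟨_, hi, by simp [t]⟩
    have hcardU : (s.biUnion t).card = C.card * Fintype.card V + Cᶜ.card * W.card := by
      rw [hU, Finset.card_union_of_disjoint, Finset.card_product, Finset.card_product,
        Finset.card_univ]
      rw [Finset.disjoint_left]
      rintro ⟨c, v⟩ h1 h2
      simp only [Finset.mem_product, Finset.mem_univ, and_true, Finset.mem_compl] at h1 h2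
      exact h2.1 h1
    have hcards : s.card ≤ ∑ c ∈ C, n c + ∑ v ∈ W, (Fintype.card F - g v) := by
      have hsub : s ⊆ (C.sigma fun c => (Finset.univ : Finset (Fin (n c)))).disjSum
          (W.sigma fun v => (Finset.univ : Finset (Fin (Fintype.card F - g v)))) := by
        rintro (⟨c, i⟩ | ⟨v, i⟩) hx
        · rw [Finset.inl_mem_disjSum]
          simp only [Finset.mem_sigma, Finset.mem_univ, and_true, C, Finset.mem_filter, true_and]
          exact ⟨i, hx⟩
        · rw [Finset.inr_mem_disjSum]
          simp only [Finset.mem_sigma, Finset.mem_univ, and_true, W, Finset.mem_filter, true_and]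
          exact ⟨i, hx⟩
      refine (Finset.card_le_card hsub).trans (le_of_eq ?_)
      rw [Finset.card_disjSum, Finset.card_sigma, Finset.card_sigma]
      simp
    rw [hcardU]
    refine hcards.trans ?_
    have hk := key C W
    have h1 : ∑ v ∈ W, (Fintype.card F - g v) + ∑ v ∈ W, g v = W.card * Fintype.card F := by
      rw [← Finset.sum_add_distrib, ← smul_eq_mul, ← Finset.sum_const]
      refine Finset.sum_congr rfl fun v _ => ?_
      have := hgF v
      omega
    have h2 : W.card + Wᶜ.card = Fintype.card V := Finset.card_add_card_compl W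
    have h3 : C.card + Cᶜ.card = Fintype.card F := Finset.card_add_card_compl C
    have h4 : W.card * Fintype.card F = C.card * W.card + Cᶜ.card * W.card := by
      rw [← h3]; ring
    have h5 : C.card * Fintype.card V = C.card * W.card + C.card * Wᶜ.card := by
      rw [← h2]; ring
    omega
  obtain ⟨f, hfinj, hft⟩ := (Finset.all_card_le_biUnion_card_iff_exists_injective t).mp hall
  have hcardι : Fintype.card ι = Fintype.card (F × V) := by
    have h1 : ∑ v, (Fintype.card F - g v) + ∑ v, g v = Fintype.card V * Fintype.card F := by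
      rw [← Finset.sum_add_distrib, ← smul_eq_mul, ← Finset.card_univ (α := V),
        ← Finset.sum_const]
      refine Finset.sum_congr rfl fun v _ => ?_
      have := hgF v
      omega
    have h2 : Fintype.card ι = ∑ c, n c + ∑ v, (Fintype.card F - g v) := by
      simp only [ι, Fintype.card_sum, Fintype.card_sigma, Fintype.card_fin]
    rw [h2, Fintype.card_prod, hs, mul_comm]
    omega
  have hbij : Function.Bijective f := (Fintype.bijective_iff_injective_and_card f).mpr
    ⟨hfinj, hcardι⟩
  have hinl : ∀ s, (f (Sum.inl s)).1 = s.1 := by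
    intro s
    have h := hft (Sum.inl s)
    simp only [t, Finset.mem_product, Finset.mem_singleton, Finset.mem_univ, and_true] at h
    exact h
  have hinr : ∀ s, (f (Sum.inr s)).2 = s.1 := by
    intro s
    have h := hft (Sum.inr s)
    simp only [t, Finset.mem_product, Finset.mem_singleton, Finset.mem_univ, true_and] at h
    exact h
  refine ⟨fun c => (Finset.univ : Finset (Fin (n c))).image fun i => (f (Sum.inl ⟨c, i⟩)).2,
    ?_, ?_⟩
  · intro c
    rw [Finset.card_image_of_injective, Finset.card_univ, Fintype.card_fin]
    intro i j hij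
    have h1 : f (Sum.inl ⟨c, i⟩) = f (Sum.inl ⟨c, j⟩) :=
      Prod.ext (by rw [hinl, hinl]) hij
    have h2 := Sum.inl_injective (hfinj h1)
    simpa using h2
  · intro v
    -- the pairs `(c, v)` not in the graph are covered by the anti-slots of `v`
    have hcomp : (Finset.univ.filter fun c => v ∈ (Finset.univ : Finset (Fin (n c))).image
        fun i => (f (Sum.inl ⟨c, i⟩)).2)ᶜ =
        (Finset.univ : Finset (Fin (Fintype.card F - g v))).image
          fun j => (f (Sum.inr ⟨v, j⟩)).1 := by
      ext c
      simp only [Finset.mem_compl, Finset.mem_filter, Finset.mem_univ, true_and, Finset.mem_image,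
        not_exists]
      constructor
      · intro h
        obtain ⟨x, hx⟩ := hbij.2 (c, v)
        rcases x with ⟨c', i⟩ | ⟨v', j⟩
        · have h1 := hinl ⟨c', i⟩
          rw [hx] at h1
          simp only at h1
          subst h1
          exact absurd (by rw [hx]) (h i)
        · have h1 := hinr ⟨v', j⟩
          rw [hx] at h1
          simp only at h1
          subst h1
          exact ⟨j, by rw [hx]⟩
      · rintro ⟨j, hj⟩ i hi
        have h1 : f (Sum.inr ⟨v, j⟩) = f (Sum.inl ⟨c, i⟩) :=
          Prod.ext (by rw [hj, hinl]) (by rw [hinr, hi])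
        have h2 := hfinj h1
        exact absurd h2 (by simp)
    have hcc := Finset.card_add_card_compl (Finset.univ.filter fun c =>
      v ∈ (Finset.univ : Finset (Fin (n c))).image fun i => (f (Sum.inl ⟨c, i⟩)).2)
    rw [hcomp, Finset.card_image_of_injective, Finset.card_univ, Fintype.card_fin] at hcc
    · have h1 := hgF v
      have h2 : (Finset.univ.filter fun c => v ∈ (Finset.univ : Finset (Fin (n c))).image
        fun i => (f (Sum.inl ⟨c, i⟩)).2).card = g v := by omega
      exact h2
    · intro i j hij
      have h1 : f (Sum.inr ⟨v, i⟩) = f (Sum.inr ⟨v, j⟩) :=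
        Prod.ext hij (by rw [hinr, hinr])
      have h2 := Sum.inr_injective (hfinj h1)
      simpa using h2

end Vale.Agent.P181.H654
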